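import Vale.Agent.P084.Sum.Midpoint

/-!
P084: a flat face `Z × {1}` of the sphere of `Z × ℝ` (maximum norm) is mapped by a surjective
isometry of spheres onto a flat face, affinely; the opposite face goes into the opposite one.
-/

noncomputable section

open Metric Set MeasureTheory

namespace Vale.Agent.P084.Sum

variable {W Z Y : Type*} [NormedAddCommGroup W] [NormedSpace ℝ W]
  [NormedAddCommGroup Z] [NormedSpace ℝ Z] [NormedAddCommGroup Y] [NormedSpace ℝ Y]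

/-- `g` restricts to an isometry of the unit sphere of `W` onto that of `Y`. -/
structure SphereIso (g : W → Y) : Prop where
  norm_eq : ∀ x, ‖x‖ = 1 → ‖g x‖ = 1
  iso : ∀ x x', ‖x‖ = 1 → ‖x'‖ = 1 → ‖g x - g x'‖ = ‖x - x'‖
  surj : ∀ y : Y, ‖y‖ = 1 → ∃ x, ‖x‖ = 1 ∧ g x = y

omit [NormedSpace ℝ Y] in
theorem SphereIso.comp {g : W → Y} (hg : SphereIso g) (σ : Z ≃ₗᵢ[ℝ] W) :
    SphereIso fun z => g (σ z) := by
  refine ⟨fun x hx => hg.norm_eq _ (by rwa [σ.norm_map]), fun x x' hx hx' => ?_, fun y hy => ?_⟩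
  · rw [hg.iso _ _ (by rwa [σ.norm_map]) (by rwa [σ.norm_map]), ← map_sub, σ.norm_map]
  · obtain ⟨x, hx, rfl⟩ := hg.surj y hy
    exact ⟨σ.symm x, by rwa [σ.symm.norm_map], by simp⟩

/-- A norm one functional attaining the norm at a point of differentiability is the derivative. -/
theorem fderiv_eq_of_support {b : W} (hd : DifferentiableAt ℝ (norm : W → ℝ) b)
    {χ : W →L[ℝ] ℝ} (h1 : ∀ w, χ w ≤ ‖w‖) (h2 : χ b = ‖b‖) : fderiv ℝ (norm : W → ℝ) b = χ := by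
  have hmin : IsLocalMin (fun w => ‖w‖ - χ w) b :=
    Filter.Eventually.of_forall fun w => by
      simp only [h2, sub_self]
      linarith [h1 w]
  have h := hmin.hasFDerivAt_eq_zero (hd.hasFDerivAt.sub χ.hasFDerivAt)
  exact sub_eq_zero.1 h

/-- If all points of a relatively open piece of the sphere are at distance two from `q₁` and `q₂`,
then so is the whole segment between them. -/
theorem segment_dist_two {q₁ q₂ y₁ : Y} (hq₁ : ‖q₁‖ = 1) (hq₂ : ‖q₂‖ = 1) (hy₁ : ‖y₁‖ = 1)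
    {η : ℝ} (hη : 0 < η) (hU : ∀ b, ‖b‖ = 1 → ‖b - y₁‖ < η → ‖q₁ - b‖ = 2 ∧ ‖q₂ - b‖ = 2)
    {l μ : ℝ} (hl : 0 ≤ l) (hμ : 0 ≤ μ) (hlμ : l + μ = 1) :
    ‖l • q₁ + μ • q₂‖ = 1 ∧ ‖l • q₁ + μ • q₂ - y₁‖ = 2 := by
  set M := l • q₁ + μ • q₂ with hM
  have hMle : ‖M‖ ≤ 1 := by
    refine (norm_add_le _ _).trans (le_of_eq ?_)
    rw [norm_smul, norm_smul, hq₁, hq₂, Real.norm_of_nonneg hl, Real.norm_of_nonneg hμ]
    linarith
  have hclose : ∀ ε, 0 < ε → ε ≤ η → 1 ≤ ‖M‖ ∧ 2 - ε ≤ ‖M - y₁‖ := by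
    intro ε hε hεη
    set V : Submodule ℝ Y := Submodule.span ℝ {q₁, q₂, y₁} with hV
    have : FiniteDimensional ℝ V := FiniteDimensional.span_of_finite ℝ (Set.toFinite _)
    let mV : MeasurableSpace V := borel V
    have hBV : BorelSpace V := ⟨rfl⟩
    have hq₁V : q₁ ∈ V := Submodule.subset_span (by simp)
    have hq₂V : q₂ ∈ V := Submodule.subset_span (by simp)
    have hy₁V : y₁ ∈ V := Submodule.subset_span (by simp)
    have hO : IsOpen (Metric.ball (⟨y₁, hy₁V⟩ : V) (min (ε / 4) (1 / 2))) := isOpen_ball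
    obtain ⟨w, hwball, hwdiff⟩ : ∃ w ∈ Metric.ball (⟨y₁, hy₁V⟩ : V) (min (ε / 4) (1 / 2)),
        DifferentiableAt ℝ (norm : V → ℝ) w := by
      have hae := (lipschitzWith_one_norm (E := V)).ae_differentiableAt
        (μ := (Measure.addHaar : Measure V))
      have hpos := hO.measure_pos (Measure.addHaar : Measure V)
        ⟨_, Metric.mem_ball_self (lt_min (by linarith) (by norm_num))⟩
      by_contra hno
      push Not at hno
      refine hpos.ne' (measure_mono_null (t := {a : V | ¬ DifferentiableAt ℝ (norm : V → ℝ) a})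
        (fun w hw => hno w hw) ?_)
      simpa [ae_iff] using hae
    rw [Metric.mem_ball, dist_eq_norm, lt_min_iff] at hwball
    have hwy : ‖(w : Y) - y₁‖ < ε / 4 ∧ ‖(w : Y) - y₁‖ < 1 / 2 := hwball
    have hwn : |‖(w : Y)‖ - 1| ≤ ‖(w : Y) - y₁‖ := by
      have := abs_norm_sub_norm_le (w : Y) y₁; rwa [hy₁] at this
    have hwpos : 0 < ‖(w : Y)‖ := by linarith [(abs_le.1 hwn).1, hwy.2]
    set b : V := ‖w‖⁻¹ • w with hb
    have hbn : ‖(b : Y)‖ = 1 := by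
      rw [hb, Submodule.coe_smul, norm_smul, norm_inv, Real.norm_of_nonneg (norm_nonneg _)]
      exact inv_mul_cancel₀ hwpos.ne'
    have hbw : ‖(b : Y) - w‖ = |1 - ‖(w : Y)‖| := by
      rw [hb, Submodule.coe_smul, show ‖w‖⁻¹ • (w : Y) - w = (‖w‖⁻¹ - 1) • (w : Y) by module,
        norm_smul, Real.norm_eq_abs, show ‖w‖ = ‖(w : Y)‖ from rfl]
      nth_rewrite 2 [← abs_of_pos hwpos]
      rw [← abs_mul, sub_mul, inv_mul_cancel₀ hwpos.ne', one_mul]
    have hby : ‖(b : Y) - y₁‖ ≤ ε / 2 := by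
      rw [abs_sub_comm] at hbw
      linarith [norm_sub_le_norm_sub_add_norm_sub (b : Y) (w : Y) y₁, hwy.1]
    obtain ⟨hb1, hb2⟩ := hU b hbn (by linarith)
    set ψ := fderiv ℝ (norm : V → ℝ) w with hψ
    have hψle : ∀ v : V, |ψ v| ≤ ‖v‖ := fun v => by
      have := ψ.le_opNorm v
      rw [Real.norm_eq_abs] at this
      refine this.trans (mul_le_of_le_one_left (norm_nonneg _) ?_)
      exact norm_fderiv_le_of_lipschitz ℝ (lipschitzWith_one_norm (E := V))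
    have hval : ∀ q : V, ‖(q : Y)‖ = 1 → ‖(q : Y) - b‖ = 2 → ψ q = -1 ∧ ψ b = 1 := by
      intro q hq hqb
      obtain ⟨χ, hχ1, hχ2⟩ := exists_dual_vector ℝ (q - b)
        (norm_ne_zero_iff.1 (by rw [show ‖q - b‖ = 2 from hqb]; norm_num))
      have hχle : ∀ v : V, χ v ≤ ‖v‖ ∧ -‖v‖ ≤ χ v := fun v => by
        have := χ.le_opNorm v
        rw [hχ1, one_mul, Real.norm_eq_abs, abs_le] at this
        exact ⟨this.2, this.1⟩
      have h2 : χ q - χ b = 2 := by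
        rw [← map_sub, hχ2]
        exact hqb
      have hq1 : χ q ≤ 1 := (hχle q).1.trans hq.le
      have hb1' : -1 ≤ χ b := le_trans (by linarith [hbn, show ‖b‖ = ‖(b : Y)‖ from rfl]) (hχle b).2
      have hcq : χ q = 1 := by linarith
      have hcb : χ b = -1 := by linarith
      have hsupp : fderiv ℝ (norm : V → ℝ) w = -χ := by
        refine fderiv_eq_of_support hwdiff (fun v => ?_) ?_
        · show -χ v ≤ ‖v‖; linarith [(hχle v).2]
        · have hwb : w = ‖w‖ • b := by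
            rw [hb, smul_smul, mul_inv_cancel₀ (show ‖w‖ ≠ 0 from hwpos.ne'), one_smul]
          show -χ w = ‖w‖
          conv_lhs => rw [hwb]
          rw [map_smul, hcb]; simp
      rw [hψ, hsupp]
      simp [hcq, hcb]
    obtain ⟨hv1, hvb⟩ := hval ⟨q₁, hq₁V⟩ hq₁ hb1
    obtain ⟨hv2, -⟩ := hval ⟨q₂, hq₂V⟩ hq₂ hb2
    set Mv : V := l • ⟨q₁, hq₁V⟩ + μ • ⟨q₂, hq₂V⟩ with hMv
    have hψM : ψ Mv = -1 := by
      rw [hMv, map_add, map_smul, map_smul, hv1, hv2, smul_eq_mul, smul_eq_mul]; linarith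
    have hMc : (Mv : Y) = M := by simp [Mv, M]
    constructor
    · have := hψle Mv
      rw [hψM, abs_neg, abs_one] at this
      rwa [show ‖Mv‖ = ‖M‖ by rw [← hMc]; rfl] at this
    · have := hψle (Mv - b)
      rw [map_sub, hψM, hvb] at this
      norm_num at this
      rw [hMc] at this
      linarith [norm_sub_le_norm_sub_add_norm_sub M y₁ (b : Y), norm_sub_rev y₁ (b : Y)]
  refine ⟨le_antisymm hMle (hclose η hη le_rfl).1, le_antisymm ?_ ?_⟩
  · linarith [norm_sub_le M y₁]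
  · refine le_of_forall_pos_le_add fun ε hε => ?_
    have := (hclose (min ε η) (lt_min hε hη) (min_le_right _ _)).2
    linarith [min_le_left ε η]

omit [NormedSpace ℝ Z] in
theorem norm_top {z : Z} (hz : ‖z‖ ≤ 1) (s : ℝ) (hs : |s| = 1) : ‖((z, s) : Z × ℝ)‖ = 1 := by
  rw [Prod.norm_def, Real.norm_eq_abs, hs, max_eq_right hz]

omit [NormedSpace ℝ Z] in
theorem dist_bottom_eq_two {x : Z × ℝ} (hx : ‖x‖ = 1) (h : ‖x - (0, -1)‖ = 2) : x.2 = 1 := by
  rw [Prod.norm_def] at h hx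
  simp only [Prod.fst_sub, Prod.snd_sub, sub_zero, Real.norm_eq_abs, sub_neg_eq_add] at h hx
  have h1 : ‖x.1‖ ≤ 1 := hx ▸ le_max_left _ _
  have h2 : |x.2| ≤ 1 := hx ▸ le_max_right _ _
  rcases max_choice ‖x.1‖ |x.2 + 1| with hm | hm <;> rw [hm] at h
  · linarith
  · rcases abs_choice (x.2 + 1) with ha | ha <;> rw [ha] at h <;> linarith [(abs_le.1 h2).1,
      (abs_le.1 h2).2]

omit [NormedSpace ℝ Z] in
theorem near_top {z : Z} {s : ℝ} (hs : s = 1 ∨ s = -1) {x : Z × ℝ} (hx : ‖x‖ = 1)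
    (h : ‖x - (z, s)‖ < 1 - ‖z‖) : x.2 = s := by
  rw [Prod.norm_def] at h hx
  simp only [Prod.fst_sub, Prod.snd_sub, Real.norm_eq_abs, max_lt_iff] at h
  have h1 : ‖x.1‖ < 1 := by linarith [norm_le_norm_add_norm_sub z x.1, norm_sub_rev z x.1, h.1]
  have h2 : |x.2 - s| < 1 := by linarith [norm_nonneg z, h.2]
  have h3 : |x.2| = 1 := by
    rcases max_choice ‖x.1‖ ‖x.2‖ with hm | hm <;> rw [hm] at hx
    · linarith
    · simpa using hx
  obtain ⟨h2a, h2b⟩ := abs_lt.1 h2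
  rcases abs_choice x.2 with ha | ha <;> rw [ha] at h3 <;> rcases hs with rfl | rfl <;> linarith

/-- The face lemma. -/
theorem face {g : Z × ℝ → Y} (hg : SphereIso g) :
    ∃ (ω : Y →L[ℝ] ℝ) (A : Z →ₗᵢ[ℝ] Y),
      (∀ z, ‖z‖ ≤ 1 → g (z, 1) = g (0, 1) + A z) ∧ (∀ z, ‖z‖ ≤ 1 → ω (g (z, 1)) = 1) ∧
      (∀ z, ‖z‖ ≤ 1 → ω (g (z, -1)) = -1) ∧ (∀ z, ω (A z) = 0) ∧
      ∀ v, ω v = 0 → ∃ z, A z = v := by
  set T : Set Y := (fun z => g (z, (1 : ℝ))) '' {z | ‖z‖ ≤ 1} with hT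
  have n1 : ∀ z : Z, ‖z‖ ≤ 1 → ‖((z, 1) : Z × ℝ)‖ = 1 := fun z hz => norm_top hz 1 abs_one
  have n2 : ∀ z : Z, ‖z‖ ≤ 1 → ‖((z, -1) : Z × ℝ)‖ = 1 := fun z hz => norm_top hz (-1) (by simp)
  have opp : ∀ z z' : Z, ‖z‖ ≤ 1 → ‖z'‖ ≤ 1 → ‖g (z, 1) - g (z', -1)‖ = 2 := by
    intro z z' hz hz'
    rw [hg.iso _ _ (n1 z hz) (n2 z' hz'), Prod.norm_def]
    simp only [Prod.fst_sub, Prod.snd_sub, Real.norm_eq_abs]
    rw [max_eq_right (by rw [show |(1 : ℝ) - -1| = 2 by norm_num]; linarith [norm_sub_le z z'])]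
    norm_num
  have h00 : ‖((0 : Z), (-1 : ℝ))‖ = 1 := n2 0 (by simp)
  set y₁ := g (0, -1) with hy₁
  have hy₁n : ‖y₁‖ = 1 := hg.norm_eq _ h00
  have memT : ∀ y, ‖y‖ = 1 → ‖y - y₁‖ = 2 → y ∈ T := by
    intro y hy hd
    obtain ⟨x, hx, rfl⟩ := hg.surj y hy
    rw [hy₁, hg.iso _ _ hx h00] at hd
    have h2 := dist_bottom_eq_two hx hd
    refine ⟨x.1, ?_, ?_⟩
    · exact le_trans (le_max_left _ _) (Prod.norm_def x ▸ hx).le
    · show g (x.1, 1) = g x
      rw [← h2]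
  have hU : ∀ q ∈ T, ∀ b, ‖b‖ = 1 → ‖b - y₁‖ < 1 / 2 → ‖q - b‖ = 2 := by
    rintro _ ⟨z, hz, rfl⟩ b hb hd
    obtain ⟨x, hx, rfl⟩ := hg.surj b hb
    rw [hy₁, hg.iso _ _ hx h00] at hd
    have h2 := near_top (z := (0 : Z)) (Or.inr rfl) hx (by rw [norm_zero]; linarith)
    have hx1 : ‖x.1‖ ≤ 1 := le_trans (le_max_left _ _) (Prod.norm_def x ▸ hx).le
    have := opp z x.1 hz hx1
    rw [← h2] at this
    exact this
  have hTn : ∀ q ∈ T, ‖q‖ = 1 := by
    rintro _ ⟨z, hz, rfl⟩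
    exact hg.norm_eq _ (n1 z hz)
  have hconv : Convex ℝ T := by
    intro q₁ h₁ q₂ h₂ l μ hl hμ hlμ
    obtain ⟨ha, hb⟩ := segment_dist_two (hTn _ h₁) (hTn _ h₂) hy₁n (η := 1 / 2) (by norm_num)
      (fun b hb hd => ⟨hU _ h₁ b hb hd, hU _ h₂ b hb hd⟩) hl hμ hlμ
    exact memT _ ha hb
  obtain ⟨ω₀, u, hu1, hu2⟩ := geometric_hahn_banach_open (convex_ball (0 : Y) 1) isOpen_ball hconv
    (Set.disjoint_left.2 fun y hy hyT => by
      rw [mem_ball_zero_iff, hTn y hyT] at hy; exact lt_irrefl _ hy)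
  have hu : 0 < u := by simpa using hu1 0 (by simp)
  set ω : Y →L[ℝ] ℝ := u⁻¹ • ω₀ with hω
  have hωle : ∀ y, ω y ≤ ‖y‖ := by
    intro y
    refine le_of_forall_pos_le_add fun ε hε => ?_
    have hpos : 0 < ‖y‖ + ε := by linarith [norm_nonneg y]
    have h := hu1 ((‖y‖ + ε)⁻¹ • y) (by
      rw [mem_ball_zero_iff, norm_smul, norm_inv, Real.norm_of_nonneg hpos.le,
        inv_mul_lt_one₀ hpos]
      linarith)
    rw [map_smul, smul_eq_mul, inv_mul_lt_iff₀ hpos] at h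
    show u⁻¹ * ω₀ y ≤ _
    rw [inv_mul_le_iff₀ hu]
    linarith
  have hω1 : ∀ z, ‖z‖ ≤ 1 → ω (g (z, 1)) = 1 := by
    intro z hz
    refine le_antisymm ((hωle _).trans (hg.norm_eq _ (n1 z hz)).le) ?_
    show 1 ≤ u⁻¹ * ω₀ (g (z, 1))
    rw [le_inv_mul_iff₀ hu, mul_one]
    exact hu2 _ ⟨z, hz, rfl⟩
  have hlocal : ∀ z v, ‖z‖ < 1 → ω v = 0 → ‖v‖ < (1 - ‖z‖) / 3 →
      ∃ z', ‖z'‖ ≤ 1 ∧ g (z', 1) = g (z, 1) + v := by
    intro z v hz hv hvn
    set w := g (z, 1) + v with hw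
    have hp := hg.norm_eq _ (n1 z hz.le)
    have h1 : 1 ≤ ‖w‖ := by
      have := hωle w
      rwa [hw, map_add, hω1 z hz.le, hv, add_zero] at this
    have h2 : ‖w‖ ≤ 1 + ‖v‖ := (norm_add_le _ _).trans (by rw [hp])
    have hw0 : 0 < ‖w‖ := by linarith
    have hun : ‖‖w‖⁻¹ • w‖ = 1 := by
      rw [norm_smul, norm_inv, norm_norm, inv_mul_cancel₀ hw0.ne']
    obtain ⟨x, hx, hgx⟩ := hg.surj _ hun
    have hd : ‖x - (z, 1)‖ < 1 - ‖z‖ := by
      rw [← hg.iso _ _ hx (n1 z hz.le), hgx]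
      have e : ‖w‖⁻¹ • w - g (z, 1) = (‖w‖⁻¹ - 1) • w + v := by rw [hw]; module
      rw [e]
      refine lt_of_le_of_lt (norm_add_le _ _) ?_
      rw [norm_smul, Real.norm_eq_abs,
        abs_of_nonpos (sub_nonpos.2 (inv_le_one_of_one_le₀ h1)), neg_sub, sub_mul,
        inv_mul_cancel₀ hw0.ne']
      linarith
    have h3 := near_top (Or.inl rfl) hx hd
    have hx1 : ‖x.1‖ ≤ 1 := le_trans (le_max_left _ _) (Prod.norm_def x ▸ hx).le
    refine ⟨x.1, hx1, ?_⟩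
    have h4 := hω1 x.1 hx1
    rw [show ((x.1, 1) : Z × ℝ) = x from Prod.ext rfl h3.symm] at h4 ⊢
    rw [hgx, map_smul, smul_eq_mul, hw, map_add, hω1 z hz.le, hv, add_zero, mul_one] at h4
    rw [hgx, h4, one_smul]
  have hω2 : ∀ z, ‖z‖ ≤ 1 → ω (g (z, -1)) = -1 := by
    intro z hz
    set p := g (0, 1) with hp
    have hpn : ‖p‖ = 1 := hg.norm_eq _ (n1 0 (by simp))
    have h2 := opp 0 z (by simp) hz
    obtain ⟨χ, hχ1, hχ2⟩ := exists_dual_vector ℝ (p - g (z, -1))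
      (by rw [← norm_ne_zero_iff, h2]; norm_num)
    have hχle : ∀ y, |χ y| ≤ ‖y‖ := fun y => by
      have := χ.le_opNorm y; rwa [hχ1, one_mul, Real.norm_eq_abs] at this
    have hval : χ p - χ (g (z, -1)) = 2 := by rw [← map_sub, hχ2, ← h2]; rfl
    have e1 := (abs_le.1 (hχle p)).2
    have e2 := (abs_le.1 (hχle (g (z, -1)))).1
    rw [hpn] at e1
    rw [hg.norm_eq _ (n2 z hz)] at e2
    have hχp : χ p = 1 := by linarith
    have hker : ∀ v, ω v = 0 → χ v = 0 := by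
      intro v hv
      set c : ℝ := 1 / (4 * (‖v‖ + 1)) with hc
      have hc0 : 0 < c := by positivity
      have hsmall : ‖c • v‖ < (1 - ‖(0 : Z)‖) / 3 := by
        rw [norm_smul, Real.norm_of_nonneg hc0.le, hc, norm_zero, sub_zero, div_mul_eq_mul_div,
          one_mul, div_lt_div_iff₀ (by positivity) (by norm_num)]
        linarith [norm_nonneg v]
      have hb : ∀ s : ℝ, s = c ∨ s = -c → χ (s • v) ≤ 0 := by
        intro s hs
        obtain ⟨z', hz', he⟩ := hlocal 0 (s • v) (by simp) (by rw [map_smul, hv, smul_zero]) (by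
          rcases hs with rfl | rfl
          · exact hsmall
          · rwa [neg_smul, norm_neg])
        have h := (abs_le.1 (hχle (g (z', 1)))).2
        rw [hg.norm_eq _ (n1 z' hz'), he, map_add, ← hp, hχp] at h
        linarith
      have ha := hb c (Or.inl rfl)
      have hb' := hb (-c) (Or.inr rfl)
      rw [map_smul, smul_eq_mul] at ha hb'
      nlinarith
    have hfull : ∀ y, χ y = ω y := by
      intro y
      have hωp : ω p = 1 := hω1 0 (by simp)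
      have h := hker (y - ω y • p) (by rw [map_sub, map_smul, hωp, smul_eq_mul, mul_one, sub_self])
      rw [map_sub, map_smul, hχp, smul_eq_mul, mul_one, sub_eq_zero] at h
      exact h
    rw [← hfull]
    linarith
  obtain ⟨A, hA1, hA2, hA3⟩ := exists_linear (φ := fun z => g (z, 1) - g (0, 1))
    (K := LinearMap.ker ω.toLinearMap)
    (fun z hz => by
      rw [LinearMap.mem_ker]
      show ω (g (z, 1) - g (0, 1)) = 0
      rw [map_sub, hω1 z hz, hω1 0 (by simp), sub_self])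
    (by simp)
    (fun a b ha hb => by
      rw [sub_sub_sub_cancel_right, hg.iso _ _ (n1 a ha) (n1 b hb), Prod.norm_def]
      simp)
    (fun z v hz hv hd => by
      rw [LinearMap.mem_ker] at hv
      have hv' : ω v = 0 := hv
      obtain ⟨z', hz', he⟩ := hlocal z (v - (g (z, 1) - g (0, 1))) hz
        (by rw [map_sub, map_sub, hv', hω1 z hz.le, hω1 0 (by simp), sub_self, sub_self]) hd
      exact ⟨z', hz', by rw [he]; abel⟩)
  exact ⟨ω, A, fun z hz => by rw [← hA1 z hz]; abel, hω1, hω2, fun z => hA2 z,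
    fun v hv => hA3 v hv⟩

end Vale.Agent.P084.Sum
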