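import Vale.Agent.P084.Sum.Face

/-!
P084: for every real normed space `E`, a surjective isometry of the unit sphere of `E × ℝ × ℝ`
(maximum norm) onto another unit sphere is the restriction of a linear isometry.
-/

noncomputable section

open Metric Set

namespace Vale.Agent.P084.Sum

variable {E Y : Type*} [NormedAddCommGroup E] [NormedSpace ℝ E]
  [NormedAddCommGroup Y] [NormedSpace ℝ Y]

/-- `((e, u), v) ↦ (e, (s v, u))` for a sign `s`. -/
def toT (s : ℝ) (hs : s * s = 1) : ((E × ℝ) × ℝ) ≃ₗᵢ[ℝ] E × ℝ × ℝ where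
  toFun x := (x.1.1, s * x.2, x.1.2)
  invFun x := ((x.1, x.2.2), s * x.2.1)
  map_add' x y := by simp [Prod.add_def, mul_add]
  map_smul' c x := by simp [Prod.smul_def, mul_left_comm]
  left_inv x := by simp [← mul_assoc, hs]
  right_inv x := by simp [← mul_assoc, hs]
  norm_map' x := by
    have h : |s| = 1 := by
      rcases mul_self_eq_one_iff.1 hs with rfl | rfl <;> simp
    simp only [LinearEquiv.coe_mk, LinearMap.coe_mk, AddHom.coe_mk, Prod.norm_def, norm_mul,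
      Real.norm_eq_abs, h, one_mul]
    rw [max_comm |x.2|, max_assoc]

/-- `((e, t), v) ↦ (e, (t, s v))` for a sign `s`. -/
def toU (s : ℝ) (hs : s * s = 1) : ((E × ℝ) × ℝ) ≃ₗᵢ[ℝ] E × ℝ × ℝ where
  toFun x := (x.1.1, x.1.2, s * x.2)
  invFun x := ((x.1, x.2.1), s * x.2.2)
  map_add' x y := by simp [Prod.add_def, mul_add]
  map_smul' c x := by simp [Prod.smul_def, mul_left_comm]
  left_inv x := by simp [← mul_assoc, hs]
  right_inv x := by simp [← mul_assoc, hs]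
  norm_map' x := by
    have h : |s| = 1 := by
      rcases mul_self_eq_one_iff.1 hs with rfl | rfl <;> simp
    simp only [LinearEquiv.coe_mk, LinearMap.coe_mk, AddHom.coe_mk, Prod.norm_def, norm_mul,
      Real.norm_eq_abs, h, one_mul]
    rw [max_assoc]

omit [NormedSpace ℝ E] in
theorem norm_pt {e : E} {t u : ℝ} (he : ‖e‖ ≤ 1) (ht : |t| ≤ 1) (hu : |u| ≤ 1)
    (h : |t| = 1 ∨ |u| = 1) : ‖(e, t, u)‖ = 1 := by
  simp only [Prod.norm_def, Real.norm_eq_abs]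
  rcases h with h | h <;> rw [h]
  · rw [max_eq_left hu, max_eq_right he]
  · rw [max_eq_right ht, max_eq_right he]

theorem eq_of_affine {A₁ A₂ : E × ℝ →ₗᵢ[ℝ] Y} {c₁ c₂ : Y}
    {s s' : ℝ} (h : ∀ e : E, ‖e‖ ≤ 1 → c₁ + A₁ (e, s) = c₂ + A₂ (e, s')) (e : E) :
    A₁ (e, 0) = A₂ (e, 0) := by
  set c : ℝ := (‖e‖ + 1)⁻¹ with hc
  have hc0 : 0 < c := by positivity
  have hn : ‖c • e‖ ≤ 1 := by
    rw [norm_smul, Real.norm_of_nonneg hc0.le, hc, inv_mul_le_one₀ (by positivity)]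
    linarith
  have h1 := h _ hn
  have h0 := h 0 (by simp)
  have e1 : A₁ (c • e, s) = c • A₁ (e, 0) + A₁ (0, s) := by
    rw [← map_smul, ← map_add]; simp
  have e2 : A₂ (c • e, s') = c • A₂ (e, 0) + A₂ (0, s') := by
    rw [← map_smul, ← map_add]; simp
  rw [e1, e2] at h1
  have h3 : c • A₁ (e, 0) = c • A₂ (e, 0) := by
    calc c • A₁ (e, 0) = (c₁ + (c • A₁ (e, 0) + A₁ (0, s))) - (c₁ + A₁ (0, s)) := by abel
      _ = (c₂ + (c • A₂ (e, 0) + A₂ (0, s'))) - (c₂ + A₂ (0, s')) := by rw [h1, h0]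
      _ = c • A₂ (e, 0) := by abel
  exact smul_right_injective Y hc0.ne' h3

/-- The affine form of an isometry of spheres on the four faces. -/
theorem on_faces {g : E × ℝ × ℝ → Y} (hg : SphereIso g) :
    ∃ (L : (E × ℝ × ℝ) ≃ₗᵢ[ℝ] Y) (c : Y), ∀ (e : E) (t u : ℝ), ‖e‖ ≤ 1 → |t| ≤ 1 → |u| ≤ 1 →
      (|t| = 1 ∨ |u| = 1) → g (e, t, u) = c + L (e, t, u) := by
  obtain ⟨ωT, A₁, hA₁, hT1, hT2, hTA, hTsurj⟩ := face (hg.comp (toT 1 (by norm_num)))
  obtain ⟨-, A₂, hA₂, -, -, -, -⟩ := face (hg.comp (toT (-1) (by norm_num)))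
  obtain ⟨ωU, A₃, hA₃, hU1, hU2, hUA, -⟩ := face (hg.comp (toU 1 (by norm_num)))
  obtain ⟨-, A₄, hA₄, -, -, -, -⟩ := face (hg.comp (toU (-1) (by norm_num)))
  have n : ∀ {e : E} {r : ℝ}, ‖e‖ ≤ 1 → |r| ≤ 1 → ‖(e, r)‖ ≤ 1 := fun he hr => by
    rw [Prod.norm_def, Real.norm_eq_abs]; exact max_le he hr
  have h1 : |(1 : ℝ)| ≤ 1 := by norm_num
  have h2 : |(-1 : ℝ)| ≤ 1 := by norm_num
  have f₁ : ∀ {e : E} {u : ℝ}, ‖e‖ ≤ 1 → |u| ≤ 1 → g (e, 1, u) = g (0, 1, 0) + A₁ (e, u) :=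
    fun he hu => by simpa [toT] using hA₁ _ (n he hu)
  have f₂ : ∀ {e : E} {u : ℝ}, ‖e‖ ≤ 1 → |u| ≤ 1 → g (e, -1, u) = g (0, -1, 0) + A₂ (e, u) :=
    fun he hu => by simpa [toT] using hA₂ _ (n he hu)
  have f₃ : ∀ {e : E} {t : ℝ}, ‖e‖ ≤ 1 → |t| ≤ 1 → g (e, t, 1) = g (0, 0, 1) + A₃ (e, t) :=
    fun he ht => by simpa [toU] using hA₃ _ (n he ht)
  have f₄ : ∀ {e : E} {t : ℝ}, ‖e‖ ≤ 1 → |t| ≤ 1 → g (e, t, -1) = g (0, 0, -1) + A₄ (e, t) :=
    fun he ht => by simpa [toU] using hA₄ _ (n he ht)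
  have wTp : ∀ {e : E} {u : ℝ}, ‖e‖ ≤ 1 → |u| ≤ 1 → ωT (g (e, 1, u)) = 1 := fun he hu => by
    simpa [toT] using hT1 _ (n he hu)
  have wTn : ∀ {e : E} {u : ℝ}, ‖e‖ ≤ 1 → |u| ≤ 1 → ωT (g (e, -1, u)) = -1 := fun he hu => by
    simpa [toT] using hT2 _ (n he hu)
  have wUp : ∀ {e : E} {t : ℝ}, ‖e‖ ≤ 1 → |t| ≤ 1 → ωU (g (e, t, 1)) = 1 := fun he ht => by
    simpa [toU] using hU1 _ (n he ht)
  have wUn : ∀ {e : E} {t : ℝ}, ‖e‖ ≤ 1 → |t| ≤ 1 → ωU (g (e, t, -1)) = -1 := fun he ht => by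
    simpa [toU] using hU2 _ (n he ht)
  have p13 : ∀ e, A₁ (e, 0) = A₃ (e, 0) := eq_of_affine (c₁ := g (0, 1, 0)) (c₂ := g (0, 0, 1))
    (s := 1) (s' := 1) fun e he => by rw [← f₁ he h1, ← f₃ he h1]
  have p14 : ∀ e, A₁ (e, 0) = A₄ (e, 0) := eq_of_affine (c₁ := g (0, 1, 0)) (c₂ := g (0, 0, -1))
    (s := -1) (s' := 1) fun e he => by rw [← f₁ he h2, ← f₄ he h1]
  have p23 : ∀ e, A₂ (e, 0) = A₃ (e, 0) := eq_of_affine (c₁ := g (0, -1, 0)) (c₂ := g (0, 0, 1))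
    (s := 1) (s' := -1) fun e he => by rw [← f₂ he h1, ← f₃ he h2]
  set P : E →ₗ[ℝ] Y := A₁.toLinearMap ∘ₗ LinearMap.inl ℝ E ℝ with hP
  have hPe : ∀ e, P e = A₁ (e, 0) := fun e => rfl
  have split : ∀ (A : E × ℝ →ₗᵢ[ℝ] Y) (e : E) (r : ℝ), A (e, r) = A (e, 0) + r • A (0, 1) := by
    intro A e r
    rw [← map_smul, ← map_add]; simp
  set α := A₁ (0, 1) with hα
  set β := A₃ (0, 1) with hβ
  have z1 : ‖(0 : E)‖ ≤ 1 := by simp
  have kA : g (0, 1, 1) - g (0, 1, -1) = (2 : ℝ) • α := by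
    rw [f₁ z1 h1, f₁ z1 h2, split A₁ 0 1, split A₁ 0 (-1)]; module
  have kB : g (0, -1, 1) - g (0, -1, -1) = (2 : ℝ) • A₂ (0, 1) := by
    rw [f₂ z1 h1, f₂ z1 h2, split A₂ 0 1, split A₂ 0 (-1), Prod.mk_zero_zero, map_zero]; module
  have kC : g (0, 1, 1) - g (0, -1, 1) = (2 : ℝ) • β := by
    rw [f₃ z1 h1, f₃ z1 h2, split A₃ 0 1, split A₃ 0 (-1)]; module
  have kD : g (0, 1, -1) - g (0, -1, -1) = (2 : ℝ) • A₄ (0, 1) := by
    rw [f₄ z1 h1, f₄ z1 h2, split A₄ 0 1, split A₄ 0 (-1), Prod.mk_zero_zero, map_zero]; module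
  have Tα : ωT α = 0 := hTA _
  have Uβ : ωU β = 0 := hUA _
  have Uα : ωU α = 1 := by
    have := congrArg ωU kA
    rw [map_sub, wUp z1 h1, wUn z1 h1, map_smul, smul_eq_mul] at this
    linarith
  have Tβ : ωT β = 1 := by
    have := congrArg ωT kC
    rw [map_sub, wTp z1 h1, wTn z1 h1, map_smul, smul_eq_mul] at this
    linarith
  have TP : ∀ e, ωT (P e) = 0 := fun e => hTA _
  have UP : ∀ e, ωU (P e) = 0 := fun e => by rw [hPe, p13]; exact hUA _
  have hker : ∀ v, ωT v = 0 → ωU v = 0 → ∃ e, P e = v := by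
    intro v hv hv'
    obtain ⟨⟨e, r⟩, rfl⟩ := hTsurj v hv
    rw [split, map_add, map_smul, ← hPe, UP, smul_eq_mul, ← hα, Uα] at hv'
    refine ⟨e, ?_⟩
    rw [split, show r = 0 by linarith, zero_smul, add_zero, hPe]
  have U2 : ωU (A₂ (0, 1)) = 1 := by
    have := congrArg ωU kB
    rw [map_sub, wUp z1 h2, wUn z1 h2, map_smul, smul_eq_mul] at this
    linarith
  have T2 : ωT (A₂ (0, 1)) = 0 := by
    have := congrArg ωT kB
    rw [map_sub, wTn z1 h1, wTn z1 h2, map_smul, smul_eq_mul] at this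
    linarith
  obtain ⟨h, hh⟩ := hker (A₂ (0, 1) - α) (by rw [map_sub, T2, Tα, sub_zero])
    (by rw [map_sub, U2, Uα, sub_self])
  have h0 : h = 0 := by
    by_contra hne
    have hpos : 0 < ‖h‖ := norm_pos_iff.2 hne
    have e1 : A₁ (‖h‖⁻¹ • h + h, 1) = A₂ (‖h‖⁻¹ • h, 1) := by
      rw [split A₁, split A₂, p23, ← p13, one_smul, one_smul,
        show A₁ (‖h‖⁻¹ • h + h, (0 : ℝ)) = A₁ (‖h‖⁻¹ • h, 0) + A₁ (h, 0) by
          rw [← map_add]; simp,
        ← hPe h, hh, ← hα]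
      abel
    have := congrArg (fun y => ‖y‖) e1
    simp only [LinearIsometry.norm_map] at this
    rw [show ‖h‖⁻¹ • h + h = (‖h‖⁻¹ + 1) • h by rw [add_smul, one_smul], Prod.norm_def,
      Prod.norm_def, norm_smul, norm_smul, norm_one, Real.norm_of_nonneg (by positivity),
      Real.norm_of_nonneg (by positivity), add_mul, inv_mul_cancel₀ hpos.ne', max_self,
      max_eq_left (by linarith)] at this
    linarith
  have hα2 : A₂ (0, 1) = α := by
    rw [h0, map_zero] at hh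
    exact sub_eq_zero.1 hh.symm
  have hβ4 : A₄ (0, 1) = β := by
    refine smul_right_injective Y (two_ne_zero (α := ℝ)) ?_
    show (2 : ℝ) • A₄ (0, 1) = (2 : ℝ) • β
    rw [← kC, ← kD]
    have e : g (0, 1, 1) - g (0, 1, -1) = g (0, -1, 1) - g (0, -1, -1) := by rw [kA, kB, hα2]
    exact (sub_eq_sub_iff_sub_eq_sub.1 e).symm
  let L₀ : E × ℝ × ℝ →ₗ[ℝ] Y :=
    P.coprod ((LinearMap.toSpanSingleton ℝ Y β).coprod (LinearMap.toSpanSingleton ℝ Y α))
  have hL₀ : ∀ e t u, L₀ (e, t, u) = P e + (t • β + u • α) := fun e t u => by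
    simp [L₀]
  set c := (1 / 2 : ℝ) • (g (0, 1, 1) + g (0, -1, -1)) with hc
  have hall : ∀ (e : E) (t u : ℝ), ‖e‖ ≤ 1 → |t| ≤ 1 → |u| ≤ 1 → (|t| = 1 ∨ |u| = 1) →
      g (e, t, u) = c + L₀ (e, t, u) := by
    have cT : g (0, 1, 0) = c + β := by
      have a := f₁ z1 h1; have b := f₁ z1 h2
      rw [split A₁ 0 1] at a; rw [split A₁ 0 (-1)] at b
      have k := kD
      rw [hβ4] at k
      rw [Prod.mk_zero_zero, map_zero] at a b
      have e1 : g (0, -1, -1) = g (0, 1, -1) - (2 : ℝ) • β := by rw [← k]; abel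
      rw [hc, e1, a, b]; module
    have cT' : g (0, -1, 0) = c - β := by
      have a := f₂ z1 h1; have b := f₂ z1 h2
      rw [split A₂ 0 1] at a; rw [split A₂ 0 (-1)] at b
      rw [Prod.mk_zero_zero, map_zero, hα2] at a b
      have e1 : g (0, 1, 1) = g (0, -1, 1) + (2 : ℝ) • β := by rw [← kC]; abel
      rw [hc, e1, a, b]; module
    have cU : g (0, 0, 1) = c + α := by
      have a := f₃ z1 h1; have b := f₃ z1 h2
      rw [split A₃ 0 1] at a; rw [split A₃ 0 (-1)] at b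
      have k := kB
      rw [hα2] at k
      rw [Prod.mk_zero_zero, map_zero] at a b
      have e1 : g (0, -1, -1) = g (0, -1, 1) - (2 : ℝ) • α := by rw [← k]; abel
      rw [hc, e1, a, b]; module
    have cU' : g (0, 0, -1) = c - α := by
      have a := f₄ z1 h1; have b := f₄ z1 h2
      rw [split A₄ 0 1] at a; rw [split A₄ 0 (-1)] at b
      rw [Prod.mk_zero_zero, map_zero, hβ4] at a b
      have e1 : g (0, 1, 1) = g (0, 1, -1) + (2 : ℝ) • α := by rw [← kA]; abel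
      rw [hc, e1, a, b]; module
    intro e t u he ht hu hor
    rw [hL₀]
    rcases hor with h | h
    · rcases (abs_eq zero_le_one).1 h with rfl | rfl
      · rw [f₁ he hu, cT, split, ← hPe, ← hα]; module
      · rw [f₂ he hu, cT', split, p23, ← p13, ← hPe, hα2]; module
    · rcases (abs_eq zero_le_one).1 h with rfl | rfl
      · rw [f₃ he ht, cU, split, ← p13, ← hPe, ← hβ]; module
      · rw [f₄ he ht, cU', split, ← p14, ← hPe, hβ4]; module
  have hiso : ∀ x : E × ℝ × ℝ, ‖L₀ x‖ = ‖x‖ := by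
    have small : ∀ (e : E) (t u : ℝ), ‖e‖ ≤ 1 → t ∈ Icc (0 : ℝ) 1 → |u| ≤ 1 →
        ‖L₀ (e, t, u)‖ = ‖(e, t, u)‖ := by
      intro e t u he ht hu
      obtain ⟨hu1, hu2⟩ := abs_le.1 hu
      obtain ⟨v, hv, hv', hvabs⟩ : ∃ v, |u + v| ≤ 1 ∧ |v| ≤ 1 ∧ |v| = 1 := by
        rcases le_total 0 u with h | h
        · exact ⟨-1, abs_le.2 ⟨by linarith, by linarith⟩, by norm_num, by norm_num⟩
        · exact ⟨1, abs_le.2 ⟨by linarith, by linarith⟩, by norm_num, by norm_num⟩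
      have hh : ∀ s : ℝ, |s| ≤ 1 → ‖(s / 2) • e‖ ≤ 1 := fun s hs => by
        rw [norm_smul, Real.norm_eq_abs, abs_div, abs_two]
        nlinarith [norm_nonneg e, abs_nonneg s]
      have ht' : |1 - t| ≤ 1 := abs_le.2 ⟨by linarith [ht.2], by linarith [ht.1]⟩
      have hd := hg.iso _ _ (norm_pt (hh 1 h1) h1 hv (Or.inl (by norm_num)))
        (norm_pt (hh (-1) h2) ht' hv' (Or.inr hvabs))
      rw [hall _ _ _ (hh 1 h1) h1 hv (Or.inl (by norm_num)),
        hall _ _ _ (hh (-1) h2) ht' hv' (Or.inr hvabs), add_sub_add_left_eq_sub, ← map_sub] at hd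
      have ed : ((((1 : ℝ) / 2) • e, (1 : ℝ), u + v) - (((-1 : ℝ) / 2) • e, 1 - t, v)
          : E × ℝ × ℝ) = (e, t, u) := by
        refine Prod.ext ?_ (Prod.ext ?_ ?_)
        · show ((1 : ℝ) / 2) • e - ((-1 : ℝ) / 2) • e = e
          module
        · simp
        · simp
      rwa [ed] at hd
    have unit : ∀ x : E × ℝ × ℝ, ‖x‖ ≤ 1 → ‖L₀ x‖ = ‖x‖ := by
      rintro ⟨e, t, u⟩ hx
      simp only [Prod.norm_def, Real.norm_eq_abs, max_le_iff] at hx
      obtain ⟨he, ht, hu⟩ := hx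
      obtain ⟨ht1, ht2⟩ := abs_le.1 ht
      rcases le_total 0 t with h | h
      · exact small e t u he ⟨h, ht2⟩ hu
      · have := small (-e) (-t) (-u) (by rwa [norm_neg]) ⟨by linarith, by linarith⟩
          (by rwa [abs_neg])
        rwa [show ((-e, -t, -u) : E × ℝ × ℝ) = -(e, t, u) from rfl, map_neg, norm_neg,
          norm_neg] at this
    intro x
    have hr : 0 < (‖x‖ + 1)⁻¹ := by positivity
    have h := unit ((‖x‖ + 1)⁻¹ • x) (by
      rw [norm_smul, Real.norm_of_nonneg hr.le, inv_mul_le_one₀ (by positivity)]; linarith)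
    rw [map_smul, norm_smul, norm_smul] at h
    exact mul_left_cancel₀ (norm_ne_zero_iff.2 hr.ne') h
  have hsurj : Function.Surjective (⟨L₀, hiso⟩ : E × ℝ × ℝ →ₗᵢ[ℝ] Y) := by
    intro y
    obtain ⟨e, he⟩ := hker (y - ωT y • β - ωU y • α)
      (by simp [Tβ, Tα]) (by simp [Uβ, Uα])
    refine ⟨(e, ωT y, ωU y), ?_⟩
    show L₀ (e, ωT y, ωU y) = y
    rw [hL₀, he]; abel
  exact ⟨LinearIsometryEquiv.ofSurjective _ hsurj, c, hall⟩

/-- Two points of the sphere of `E` seen alike from the ball are equal. -/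
theorem eq_of_max_norm_eq {a a' : E} (ha : ‖a‖ = 1) (ha' : ‖a'‖ = 1) {r : ℝ} (hr : r ≤ 1)
    (h : ∀ z : E, ‖z‖ ≤ 1 → max ‖a + z‖ r = max ‖a' + z‖ r) : a = a' := by
  by_contra hne
  set ε := ‖a' - a‖ with hε
  have hε0 : 0 < ε := norm_pos_iff.2 (sub_ne_zero.2 fun he => hne he.symm)
  set v := ε⁻¹ • (a' - a) with hv
  have hvn : ‖v‖ = 1 := by
    rw [hv, norm_smul, norm_inv, Real.norm_of_nonneg hε0.le, ← hε, inv_mul_cancel₀ hε0.ne']
  have hεv : ε • v = a' - a := by rw [hv, smul_smul, mul_inv_cancel₀ hε0.ne', one_smul]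
  by_cases h1 : 1 < ‖a' + v‖
  · have hle : (1 + ε) * ‖a + v‖ ≤ ε + ‖a' + v‖ := by
      have e : (1 + ε) • (a + v) = ε • a + (a' + v) := by
        rw [add_smul, one_smul, smul_add ε a v, hεv]; abel
      calc (1 + ε) * ‖a + v‖ = ‖(1 + ε) • (a + v)‖ := by
            rw [norm_smul, Real.norm_of_nonneg (by linarith)]
        _ ≤ ‖ε • a‖ + ‖a' + v‖ := by rw [e]; exact norm_add_le _ _
        _ = ε + ‖a' + v‖ := by rw [norm_smul, ha, Real.norm_of_nonneg hε0.le, mul_one]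
    have hlt : ‖a + v‖ < ‖a' + v‖ := by
      by_contra hc
      push Not at hc
      nlinarith [mul_lt_mul_of_pos_left h1 hε0]
    have := h v hvn.le
    rw [max_eq_left (by linarith : r ≤ ‖a' + v‖)] at this
    rcases max_choice ‖a + v‖ r with hm | hm <;> rw [hm] at this <;> linarith
  · push Not at h1
    have hbig : 1 + ε ≤ ‖a - v‖ := by
      have e : (2 + ε) • v = (a' + v) - (a - v) := by
        rw [add_smul, hεv, two_smul]; abel
      have := norm_sub_le (a' + v) (a - v)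
      rw [← e, norm_smul, hvn, Real.norm_of_nonneg (by linarith)] at this
      linarith
    have hle : (1 + ε) * ‖a' - v‖ ≤ ε + ‖a - v‖ := by
      have e : (1 + ε) • (a' - v) = ε • a' + (a - v) := by
        rw [add_smul, one_smul, smul_sub ε a' v, hεv]; abel
      calc (1 + ε) * ‖a' - v‖ = ‖(1 + ε) • (a' - v)‖ := by
            rw [norm_smul, Real.norm_of_nonneg (by linarith)]
        _ ≤ ‖ε • a'‖ + ‖a - v‖ := by rw [e]; exact norm_add_le _ _
        _ = ε + ‖a - v‖ := by rw [norm_smul, ha', Real.norm_of_nonneg hε0.le, mul_one]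
    have hlt : ‖a' - v‖ < ‖a - v‖ := by
      by_contra hc
      push Not at hc
      nlinarith [mul_lt_mul_of_pos_left (show 1 < ‖a - v‖ by linarith) hε0]
    have := h (-v) (by rw [norm_neg, hvn])
    rw [← sub_eq_add_neg, ← sub_eq_add_neg, max_eq_left (by linarith : r ≤ ‖a - v‖)] at this
    rcases max_choice ‖a' - v‖ r with hm | hm <;> rw [hm] at this <;> linarith

/-- An isometry of the sphere fixing the four faces up to a translation is the identity. -/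
theorem eq_id {h : E × ℝ × ℝ → E × ℝ × ℝ} (hh : SphereIso h) {d : E × ℝ × ℝ}
    (hfix : ∀ (e : E) (t u : ℝ), ‖e‖ ≤ 1 → |t| ≤ 1 → |u| ≤ 1 → (|t| = 1 ∨ |u| = 1) →
      h (e, t, u) = (e, t, u) + d) : ∀ x, ‖x‖ = 1 → h x = x := by
  have h1 : |(1 : ℝ)| ≤ 1 := by norm_num
  have h0' : |(0 : ℝ)| ≤ 1 := by norm_num
  have hd : d = 0 := by
    obtain ⟨e₀, t₀, u₀⟩ := d
    have hb : ∀ (e : E) (t u : ℝ), ‖e‖ ≤ 1 → |t| ≤ 1 → |u| ≤ 1 → (|t| = 1 ∨ |u| = 1) →
        ‖e + e₀‖ ≤ 1 ∧ |t + t₀| ≤ 1 ∧ |u + u₀| ≤ 1 := by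
      intro e t u he ht hu hor
      have := hh.norm_eq _ (norm_pt he ht hu hor)
      rw [hfix e t u he ht hu hor] at this
      simp only [Prod.mk_add_mk, Prod.norm_def, Real.norm_eq_abs] at this
      have h' := this.le
      simp only [max_le_iff] at h'
      exact h'
    obtain ⟨a1, a2, a3⟩ := hb 0 1 1 (by simp) h1 h1 (Or.inl (by norm_num))
    obtain ⟨b1, b2, b3⟩ := hb 0 (-1) (-1) (by simp) (by norm_num) (by norm_num) (Or.inl (by norm_num))
    have ht : t₀ = 0 := by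
      linarith [(abs_le.1 a2).2, (abs_le.1 b2).1]
    have hu : u₀ = 0 := by
      linarith [(abs_le.1 a3).2, (abs_le.1 b3).1]
    have he : e₀ = 0 := by
      by_contra hne
      have hpos : 0 < ‖e₀‖ := norm_pos_iff.2 hne
      have hn : ‖‖e₀‖⁻¹ • e₀‖ ≤ 1 := by
        rw [norm_smul, norm_inv, norm_norm, inv_mul_cancel₀ hpos.ne']
      have := (hb _ 1 0 hn h1 h0' (Or.inl (by norm_num))).1
      rw [show ‖e₀‖⁻¹ • e₀ + e₀ = (‖e₀‖⁻¹ + 1) • e₀ by rw [add_smul, one_smul], norm_smul,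
        Real.norm_of_nonneg (by positivity), add_mul, inv_mul_cancel₀ hpos.ne'] at this
      linarith
    simp [ht, hu, he]
  subst hd
  simp only [add_zero] at hfix
  rintro ⟨a, t, u⟩ hx
  by_cases hface : |t| = 1 ∨ |u| = 1
  · have hx' := hx.le
    simp only [Prod.norm_def, Real.norm_eq_abs, max_le_iff] at hx'
    exact hfix a t u hx'.1 hx'.2.1 hx'.2.2 hface
  have coords : ∀ {a : E} {t u : ℝ}, ‖(a, t, u)‖ = 1 → ¬(|t| = 1 ∨ |u| = 1) →
      ‖a‖ = 1 ∧ |t| < 1 ∧ |u| < 1 := by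
    intro a t u hn hf
    have hn' := hn.le
    simp only [Prod.norm_def, Real.norm_eq_abs, max_le_iff] at hn'
    push Not at hf
    have ht := lt_of_le_of_ne hn'.2.1 hf.1
    have hu := lt_of_le_of_ne hn'.2.2 hf.2
    refine ⟨?_, ht, hu⟩
    simp only [Prod.norm_def, Real.norm_eq_abs] at hn
    rcases max_choice ‖a‖ (max |t| |u|) with hm | hm <;> rw [hm] at hn
    · exact hn
    · exact absurd hn (ne_of_lt (max_lt ht hu))
  obtain ⟨⟨a', t', u'⟩, hh'⟩ : ∃ p, h (a, t, u) = p := ⟨_, rfl⟩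
  have hn' : ‖(a', t', u')‖ = 1 := hh' ▸ hh.norm_eq _ hx
  have hface' : ¬(|t'| = 1 ∨ |u'| = 1) := by
    intro hf
    have hx' := hn'.le
    simp only [Prod.norm_def, Real.norm_eq_abs, max_le_iff] at hx'
    have heq := hh.iso _ _ hx hn'
    rw [hh', hfix a' t' u' hx'.1 hx'.2.1 hx'.2.2 hf, sub_self, norm_zero, eq_comm,
      norm_sub_eq_zero_iff] at heq
    obtain ⟨-, hh2⟩ := Prod.mk.inj heq
    obtain ⟨rfl, rfl⟩ := Prod.mk.inj hh2
    exact hface hf
  obtain ⟨ha, ht, hu⟩ := coords hx hface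
  obtain ⟨ha', ht', hu'⟩ := coords hn' hface'
  obtain ⟨ht1, ht2⟩ := abs_lt.1 ht
  obtain ⟨hu1, hu2⟩ := abs_lt.1 hu
  obtain ⟨ht1', ht2'⟩ := abs_lt.1 ht'
  obtain ⟨hu1', hu2'⟩ := abs_lt.1 hu'
  have dist_eq : ∀ (z : E) (s v : ℝ), ‖z‖ ≤ 1 → |s| ≤ 1 → |v| ≤ 1 → (|s| = 1 ∨ |v| = 1) →
      max ‖a - z‖ (max |t - s| |u - v|) = max ‖a' - z‖ (max |t' - s| |u' - v|) := by
    intro z s v hz hs hv hor
    have := hh.iso _ _ hx (norm_pt hz hs hv hor)
    rw [hh', hfix z s v hz hs hv hor] at this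
    simpa [Prod.norm_def] using this.symm
  have one_abs : |(1 : ℝ)| = 1 := by norm_num
  have tt : t' = t := by
    have e1 := dist_eq a 1 u ha.le h1 hu.le (Or.inl one_abs)
    rw [sub_self, sub_self, norm_zero, abs_zero, max_eq_left (abs_nonneg (t - 1)),
      max_eq_right (abs_nonneg (t - 1)), abs_of_neg (by linarith : t - 1 < 0)] at e1
    have e2 := dist_eq a' 1 u' ha'.le h1 hu'.le (Or.inl one_abs)
    rw [sub_self, sub_self, norm_zero, abs_zero, max_eq_left (abs_nonneg (t' - 1)),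
      max_eq_right (abs_nonneg (t' - 1)), abs_of_neg (by linarith : t' - 1 < 0)] at e2
    have l1 : |t' - 1| ≤ max ‖a' - a‖ (max |t' - 1| |u' - u|) :=
      (le_max_left _ _).trans (le_max_right _ _)
    have l2 : |t - 1| ≤ max ‖a - a'‖ (max |t - 1| |u - u'|) :=
      (le_max_left _ _).trans (le_max_right _ _)
    rw [abs_of_neg (by linarith : t' - 1 < 0)] at l1
    rw [abs_of_neg (by linarith : t - 1 < 0)] at l2
    rw [abs_of_neg (by linarith : t' - 1 < 0)] at e1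
    rw [abs_of_neg (by linarith : t - 1 < 0)] at e2
    linarith
  have uu : u' = u := by
    have e1 := dist_eq a t 1 ha.le ht.le h1 (Or.inr one_abs)
    rw [sub_self, sub_self, norm_zero, abs_zero, max_eq_right (abs_nonneg (u - 1)),
      max_eq_right (abs_nonneg (u - 1)), abs_of_neg (by linarith : u - 1 < 0)] at e1
    have e2 := dist_eq a' t' 1 ha'.le ht'.le h1 (Or.inr one_abs)
    rw [sub_self, sub_self, norm_zero, abs_zero, max_eq_right (abs_nonneg (u' - 1)),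
      max_eq_right (abs_nonneg (u' - 1)), abs_of_neg (by linarith : u' - 1 < 0)] at e2
    have l1 : |u' - 1| ≤ max ‖a' - a‖ (max |t' - t| |u' - 1|) :=
      (le_max_right _ _).trans (le_max_right _ _)
    have l2 : |u - 1| ≤ max ‖a - a'‖ (max |t - t'| |u - 1|) :=
      (le_max_right _ _).trans (le_max_right _ _)
    rw [abs_of_neg (by linarith : u' - 1 < 0)] at l1
    rw [abs_of_neg (by linarith : u - 1 < 0)] at l2
    rw [abs_of_neg (by linarith : u' - 1 < 0)] at e1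
    rw [abs_of_neg (by linarith : u - 1 < 0)] at e2
    linarith
  subst tt uu
  obtain ⟨s, hs, hr⟩ : ∃ s : ℝ, |s| = 1 ∧ |t' - s| ≤ 1 := by
    rcases le_total 0 t' with h | h
    · exact ⟨1, by norm_num, abs_le.2 ⟨by linarith, by linarith⟩⟩
    · exact ⟨-1, by norm_num, abs_le.2 ⟨by linarith, by linarith⟩⟩
  have haa : a = a' := by
    refine eq_of_max_norm_eq ha ha' hr fun z hz => ?_
    have := dist_eq (-z) s u' (by rwa [norm_neg]) hs.le hu'.le (Or.inl hs)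
    simpa [max_eq_left (abs_nonneg (t' - s))] using this
  rw [hh', haa]

/-- The linear extension. -/
theorem exists_linear_isometry {g : E × ℝ × ℝ → Y} (hg : SphereIso g) :
    ∃ L : (E × ℝ × ℝ) ≃ₗᵢ[ℝ] Y, ∀ x, ‖x‖ = 1 → g x = L x := by
  obtain ⟨L, c, hL⟩ := on_faces hg
  have hh : SphereIso fun x => L.symm (g x) := by
    refine ⟨fun x hx => by rw [L.symm.norm_map]; exact hg.norm_eq x hx, fun x x' hx hx' => ?_,
      fun y hy => ?_⟩
    · rw [← map_sub, L.symm.norm_map, hg.iso x x' hx hx']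
    · obtain ⟨x, hx, he⟩ := hg.surj (L y) (by rwa [L.norm_map])
      exact ⟨x, hx, by rw [he, L.symm_apply_apply]⟩
  refine ⟨L, fun x hx => ?_⟩
  have := eq_id hh (d := L.symm c) (fun e t u he ht hu hor => by
    show L.symm (g (e, t, u)) = _
    rw [hL e t u he ht hu hor, map_add, L.symm_apply_apply, add_comm]) x hx
  exact (L.symm_apply_eq.1 this)

end Vale.Agent.P084.Sum
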