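import Mathlib

/-!
P084: the local form of the Mazur-Ulam theorem. An isometry of a centrally symmetric bounded set
onto another one maps the centre to the centre; hence a map of the closed unit ball which is an
isometry and locally onto is linear.
-/

noncomputable section

open Metric Set

namespace Vale.Agent.P084.Sum

variable {Z Y : Type*} [NormedAddCommGroup Z] [NormedSpace ℝ Z]
  [NormedAddCommGroup Y] [NormedSpace ℝ Y]

/-- The reflection of a symmetric set in its centre. -/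
def reflect (S : Set Z) (m : Z) (h : ∀ x ∈ S, (2 : ℝ) • m - x ∈ S) : S ≃ᵢ S where
  toFun x := ⟨(2 : ℝ) • m - x, h x x.2⟩
  invFun x := ⟨(2 : ℝ) • m - x, h x x.2⟩
  left_inv x := Subtype.ext (by simp)
  right_inv x := Subtype.ext (by simp)
  isometry_toFun := Isometry.of_dist_eq fun x y => by
    simp only [Subtype.dist_eq, dist_sub_left]

theorem reflect_apply (S : Set Z) (m : Z) (h : ∀ x ∈ S, (2 : ℝ) • m - x ∈ S) (x : S) :
    (reflect S m h x : Z) = (2 : ℝ) • m - x := rfl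

theorem dist_reflect_self (S : Set Z) (m : Z) (h : ∀ x ∈ S, (2 : ℝ) • m - x ∈ S) (x : S) :
    dist (reflect S m h x : Z) x = 2 * dist (x : Z) m := by
  rw [reflect_apply, dist_eq_norm, dist_eq_norm, show (2 : ℝ) • m - (x : Z) - x
      = (-2 : ℝ) • ((x : Z) - m) by module, norm_smul]
  norm_num

/-- An isometry of a bounded symmetric set fixes its centre. -/
theorem centre_fixed {S : Set Z} {m : Z} (hm : m ∈ S) (h : ∀ x ∈ S, (2 : ℝ) • m - x ∈ S) {R : ℝ}
    (hR : ∀ x ∈ S, dist x m ≤ R) (e : S ≃ᵢ S) : e ⟨m, hm⟩ = ⟨m, hm⟩ := by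
  set M : S := ⟨m, hm⟩ with hM
  set D : ℝ := ⨆ e : S ≃ᵢ S, dist (e M : Z) m with hD
  have hb : BddAbove (range fun e : S ≃ᵢ S => dist (e M : Z) m) :=
    ⟨R, by rintro _ ⟨e, rfl⟩; exact hR _ (e M).2⟩
  have : Nonempty (S ≃ᵢ S) := ⟨IsometryEquiv.refl _⟩
  have hRM : reflect S m h M = M := Subtype.ext (by rw [reflect_apply]; simp [M, two_smul])
  have hhalf : D ≤ D / 2 := by
    refine ciSup_le fun e => ?_
    have key : dist ((((e.trans (reflect S m h)).trans e.symm).trans (reflect S m h)) M : Z) m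
        = 2 * dist (e M : Z) m := by
      rw [← dist_reflect_self S m h (e M)]
      simp only [IsometryEquiv.trans_apply]
      calc dist (reflect S m h (e.symm (reflect S m h (e M))) : Z) m
          = dist (reflect S m h (e.symm (reflect S m h (e M)))) (reflect S m h M) := by
            rw [hRM]; rfl
        _ = dist (e.symm (reflect S m h (e M))) (e.symm (e M)) := by
            rw [IsometryEquiv.dist_eq, e.symm_apply_apply]
        _ = _ := by rw [IsometryEquiv.dist_eq]; rfl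
    rw [le_div_iff₀' two_pos, ← key]
    exact le_ciSup hb _
  have h0 : dist (e M : Z) m ≤ 0 := (le_ciSup hb e).trans (by linarith)
  exact Subtype.ext (dist_le_zero.1 h0)

/-- An isometry between symmetric sets maps the centre to the centre. -/
theorem centre_to_centre {S : Set Z} {S' : Set Y} {m : Z} {m' : Y} (hm : m ∈ S)
    (h : ∀ x ∈ S, (2 : ℝ) • m - x ∈ S) (h' : ∀ x ∈ S', (2 : ℝ) • m' - x ∈ S') {R : ℝ}
    (hR : ∀ x ∈ S, dist x m ≤ R) (φ : Z → Y) (hmaps : MapsTo φ S S')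
    (hsurj : ∀ y ∈ S', ∃ x ∈ S, φ x = y)
    (hiso : ∀ x ∈ S, ∀ y ∈ S, dist (φ x) (φ y) = dist x y) : φ m = m' := by
  let F : S → S' := fun x => ⟨φ x, hmaps x.2⟩
  have hF : Isometry F := Isometry.of_dist_eq fun x y => hiso x x.2 y y.2
  have hFs : Function.Surjective F := fun y => by
    obtain ⟨x, hx, he⟩ := hsurj y y.2
    exact ⟨⟨x, hx⟩, Subtype.ext he⟩
  let G : S ≃ᵢ S' := IsometryEquiv.mk (Equiv.ofBijective F ⟨hF.injective, hFs⟩) hF
  have hfix := centre_fixed hm h hR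
    (((G.trans (reflect S' m' h')).trans G.symm).trans (reflect S m h))
  simp only [IsometryEquiv.trans_apply] at hfix
  have h1 : G.symm (reflect S' m' h' (G ⟨m, hm⟩)) = ⟨m, hm⟩ := by
    apply (reflect S m h).injective
    rw [hfix]
    exact Subtype.ext (by rw [reflect_apply]; simp [two_smul])
  rw [IsometryEquiv.symm_apply_eq] at h1
  have h2 : (2 : ℝ) • m' - φ m = φ m := congrArg Subtype.val h1
  have h3 : (2 : ℝ) • m' = (2 : ℝ) • φ m := by
    rw [two_smul ℝ (φ m)]; exact eq_add_of_sub_eq h2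
  exact (smul_right_injective Y (two_ne_zero (α := ℝ)) h3).symm

variable {φ : Z → Y} {K : Submodule ℝ Y}

/-- A map of the closed unit ball, isometric and locally onto `K`, preserves midpoints of close
pairs of interior points. -/
theorem midpoint_close (hK : ∀ z, ‖z‖ ≤ 1 → φ z ∈ K)
    (hiso : ∀ a b, ‖a‖ ≤ 1 → ‖b‖ ≤ 1 → ‖φ a - φ b‖ = ‖a - b‖)
    (hloc : ∀ z v, ‖z‖ < 1 → v ∈ K → ‖v - φ z‖ < (1 - ‖z‖) / 3 →
      ∃ z', ‖z'‖ ≤ 1 ∧ φ z' = v)
    {p q : Z} (hp : ‖p‖ < 1) (hpq : ‖p - q‖ < (1 - ‖p‖) / 6) :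
    φ ((1 / 2 : ℝ) • (p + q)) = (1 / 2 : ℝ) • (φ p + φ q) := by
  set d := ‖p - q‖ / 2 with hd
  have hq : ‖q‖ ≤ 1 := by
    have := norm_sub_norm_le q p
    rw [norm_sub_rev] at this
    linarith [norm_nonneg p]
  set S : Set Z := {x | ‖x - p‖ = d ∧ ‖x - q‖ = d} with hS
  set S' : Set Y := {y | y ∈ K ∧ ‖y - φ p‖ = d ∧ ‖y - φ q‖ = d} with hS'
  have hS1 : ∀ x ∈ S, ‖x‖ ≤ 1 := fun x hx => by
    have := norm_le_norm_add_norm_sub p x
    rw [norm_sub_rev, hx.1] at this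
    linarith [norm_nonneg (p - q)]
  refine centre_to_centre (S := S) (S' := S') (R := ‖p - q‖) ?_ ?_ ?_ ?_ φ ?_ ?_ ?_
  · constructor
    · rw [show (1 / 2 : ℝ) • (p + q) - p = (1 / 2 : ℝ) • (q - p) by module, norm_smul,
        norm_sub_rev, hd, Real.norm_of_nonneg (by norm_num : (0 : ℝ) ≤ 1 / 2)]
      ring
    · rw [show (1 / 2 : ℝ) • (p + q) - q = (1 / 2 : ℝ) • (p - q) by module, norm_smul, hd,
        Real.norm_of_nonneg (by norm_num : (0 : ℝ) ≤ 1 / 2)]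
      ring
  · intro x hx
    constructor
    · rw [show (2 : ℝ) • (1 / 2 : ℝ) • (p + q) - x - p = -(x - q) by module, norm_neg, hx.2]
    · rw [show (2 : ℝ) • (1 / 2 : ℝ) • (p + q) - x - q = -(x - p) by module, norm_neg, hx.1]
  · intro y hy
    refine ⟨K.sub_mem (K.smul_mem _ (K.smul_mem _ (K.add_mem (hK p hp.le) (hK q hq)))) hy.1,
      ?_, ?_⟩
    · rw [show (2 : ℝ) • (1 / 2 : ℝ) • (φ p + φ q) - y - φ p = -(y - φ q) by module, norm_neg,
        hy.2.2]
    · rw [show (2 : ℝ) • (1 / 2 : ℝ) • (φ p + φ q) - y - φ q = -(y - φ p) by module, norm_neg,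
        hy.2.1]
  · intro x hx
    rw [dist_eq_norm, show x - (1 / 2 : ℝ) • (p + q) = (x - p) + (1 / 2 : ℝ) • (p - q) by module]
    refine (norm_add_le _ _).trans ?_
    rw [hx.1, norm_smul, Real.norm_of_nonneg (by norm_num : (0 : ℝ) ≤ 1 / 2)]
    linarith
  · intro x hx
    exact ⟨hK x (hS1 x hx), by rw [hiso x p (hS1 x hx) hp.le, hx.1],
      by rw [hiso x q (hS1 x hx) hq, hx.2]⟩
  · intro y hy
    obtain ⟨x, hx, rfl⟩ := hloc p y hp hy.1 (by rw [hy.2.1]; linarith [norm_nonneg (p - q)])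
    exact ⟨x, ⟨by rw [← hiso x p hx hp.le, hy.2.1], by rw [← hiso x q hx hq, hy.2.2]⟩, rfl⟩
  · intro x hx y hy
    rw [dist_eq_norm, dist_eq_norm, hiso x y (hS1 x hx) (hS1 y hy)]

/-- A sequence preserving midpoints of consecutive triples is affine. -/
theorem arith_seq (a : ℕ → Y) (N : ℕ)
    (h : ∀ i, i + 2 ≤ N → a (i + 1) = (1 / 2 : ℝ) • (a i + a (i + 2))) :
    ∀ i, i ≤ N → a i = a 0 + (i : ℝ) • (a 1 - a 0) := by
  intro i
  induction i using Nat.strong_induction_on with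
  | _ i ih =>
    match i, ih with
    | 0, _ => intro _; simp
    | 1, _ => intro _; simp
    | k + 2, ih =>
      intro hk
      have h1 := h k hk
      have h2 := ih k (by omega) (by omega)
      have h3 := ih (k + 1) (by omega) (by omega)
      have h4 : a (k + 2) = (2 : ℝ) • a (k + 1) - a k := by rw [h1]; module
      rw [h4, h2, h3]
      push_cast
      module

/-- The map preserves all midpoints of interior points. -/
theorem midpoint_open (hK : ∀ z, ‖z‖ ≤ 1 → φ z ∈ K)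
    (hiso : ∀ a b, ‖a‖ ≤ 1 → ‖b‖ ≤ 1 → ‖φ a - φ b‖ = ‖a - b‖)
    (hloc : ∀ z v, ‖z‖ < 1 → v ∈ K → ‖v - φ z‖ < (1 - ‖z‖) / 3 →
      ∃ z', ‖z'‖ ≤ 1 ∧ φ z' = v)
    {p q : Z} (hp : ‖p‖ < 1) (hq : ‖q‖ < 1) :
    φ ((1 / 2 : ℝ) • (p + q)) = (1 / 2 : ℝ) • (φ p + φ q) := by
  set r := 1 - max ‖p‖ ‖q‖ with hr
  have hr0 : 0 < r := by rw [hr]; simp [hp, hq]
  obtain ⟨k, hk⟩ := exists_nat_gt (6 * ‖p - q‖ / r)
  set n : ℕ := k + 1 with hn
  have hnp : (0 : ℝ) < n := by positivity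
  set w : ℕ → Z := fun i => p + ((i : ℝ) / (2 * n)) • (q - p) with hw
  have hwn : ∀ i, i ≤ 2 * n → ‖w i‖ ≤ max ‖p‖ ‖q‖ := by
    intro i hi
    set s : ℝ := (i : ℝ) / (2 * n) with hs
    have hs0 : 0 ≤ s := by positivity
    have hs1 : s ≤ 1 := by
      rw [hs, div_le_one (by positivity)]; exact_mod_cast hi
    rw [hw]
    show ‖p + s • (q - p)‖ ≤ _
    rw [show p + s • (q - p) = (1 - s) • p + s • q by module]
    refine (norm_add_le _ _).trans ?_
    rw [norm_smul, norm_smul, Real.norm_of_nonneg (by linarith), Real.norm_of_nonneg hs0]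
    nlinarith [mul_le_mul_of_nonneg_left (le_max_left ‖p‖ ‖q‖) (sub_nonneg.2 hs1),
      mul_le_mul_of_nonneg_left (le_max_right ‖p‖ ‖q‖) hs0]
  have hstep : ∀ i, i + 2 ≤ 2 * n →
      φ (w (i + 1)) = (1 / 2 : ℝ) • (φ (w i) + φ (w (i + 2))) := by
    intro i hi
    have h1 := hwn i (by omega)
    have hlt : ‖w i‖ < 1 := by linarith
    have hd : w i - w (i + 2) = ((n : ℝ)⁻¹) • (p - q) := by
      simp only [w]; push_cast
      rw [show ((i : ℝ) + 2) / (2 * n) = (i : ℝ) / (2 * n) + (n : ℝ)⁻¹ by field_simp]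
      module
    have hmid : w (i + 1) = (1 / 2 : ℝ) • (w i + w (i + 2)) := by
      simp only [w]; push_cast
      rw [show ((i : ℝ) + 2) / (2 * n) = (i : ℝ) / (2 * n) + 2 * (1 / (2 * n)) by ring,
        show ((i : ℝ) + 1) / (2 * n) = (i : ℝ) / (2 * n) + 1 / (2 * n) by ring]
      module
    rw [hmid]
    refine midpoint_close hK hiso hloc hlt ?_
    rw [hd, norm_smul, norm_inv, Real.norm_of_nonneg hnp.le, inv_mul_lt_iff₀ hnp]
    have h2 : 6 * ‖p - q‖ < (n : ℝ) * r := by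
      have hkn : (k : ℝ) < n := by rw [hn]; push_cast; linarith
      rw [div_lt_iff₀ hr0] at hk
      nlinarith
    have h3 : (n : ℝ) * r ≤ n * (1 - ‖w i‖) := mul_le_mul_of_nonneg_left (by linarith) hnp.le
    linarith
  have key := arith_seq (fun i => φ (w i)) (2 * n) hstep
  have hn' := key n (by omega)
  have h2n := key (2 * n) le_rfl
  have e0 : w 0 = p := by simp [w]
  have e1 : w (2 * n) = q := by
    simp only [w]; push_cast
    rw [div_self (by positivity)]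
    module
  have em : w n = (1 / 2 : ℝ) • (p + q) := by
    simp only [w]
    rw [show (n : ℝ) / (2 * n) = 1 / 2 by field_simp]
    module
  simp only [e0, e1, em] at hn' h2n
  rw [hn', h2n]
  push_cast
  module

/-- The map preserves all midpoints of the closed ball. -/
theorem midpoint_closed (hK : ∀ z, ‖z‖ ≤ 1 → φ z ∈ K)
    (hiso : ∀ a b, ‖a‖ ≤ 1 → ‖b‖ ≤ 1 → ‖φ a - φ b‖ = ‖a - b‖)
    (hloc : ∀ z v, ‖z‖ < 1 → v ∈ K → ‖v - φ z‖ < (1 - ‖z‖) / 3 →
      ∃ z', ‖z'‖ ≤ 1 ∧ φ z' = v)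
    {p q : Z} (hp : ‖p‖ ≤ 1) (hq : ‖q‖ ≤ 1) :
    φ ((1 / 2 : ℝ) • (p + q)) = (1 / 2 : ℝ) • (φ p + φ q) := by
  have hmn : ∀ a b : Z, ‖a‖ ≤ 1 → ‖b‖ ≤ 1 → ‖(1 / 2 : ℝ) • (a + b)‖ ≤ 1 := fun a b ha hb => by
    rw [norm_smul, Real.norm_of_nonneg (by norm_num : (0 : ℝ) ≤ 1 / 2)]
    linarith [norm_add_le a b]
  set D := ‖φ ((1 / 2 : ℝ) • (p + q)) - (1 / 2 : ℝ) • (φ p + φ q)‖ with hD
  have hs : ∀ s : ℝ, 0 < s → s ≤ 1 → D ≤ s * (2 * (‖p‖ + ‖q‖) + 1) := by
    intro s hs0 hs1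
    have hc : 0 ≤ 1 - s := by linarith
    have hsm : ∀ a : Z, ‖a‖ ≤ 1 → ‖(1 - s) • a‖ < 1 ∧ ‖a - (1 - s) • a‖ = s * ‖a‖ := fun a ha => by
      constructor
      · rw [norm_smul, Real.norm_of_nonneg hc]; nlinarith [norm_nonneg a]
      · rw [show a - (1 - s) • a = s • a by module, norm_smul, Real.norm_of_nonneg hs0.le]
    obtain ⟨hp', hp2⟩ := hsm p hp
    obtain ⟨hq', hq2⟩ := hsm q hq
    have hm := midpoint_open hK hiso hloc hp' hq'
    have e : φ ((1 / 2 : ℝ) • (p + q)) - (1 / 2 : ℝ) • (φ p + φ q)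
        = (φ ((1 / 2 : ℝ) • (p + q)) - φ ((1 / 2 : ℝ) • ((1 - s) • p + (1 - s) • q)))
          - (1 / 2 : ℝ) • ((φ p - φ ((1 - s) • p)) + (φ q - φ ((1 - s) • q))) := by
      rw [hm]; module
    rw [hD, e]
    refine (norm_sub_le _ _).trans ?_
    rw [norm_smul, Real.norm_of_nonneg (by norm_num : (0 : ℝ) ≤ 1 / 2)]
    have t1 := norm_add_le (φ p - φ ((1 - s) • p)) (φ q - φ ((1 - s) • q))
    rw [hiso _ _ hp hp'.le, hiso _ _ hq hq'.le, hp2, hq2] at t1
    rw [hiso _ _ (hmn p q hp hq) (hmn _ _ hp'.le hq'.le),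
      show (1 / 2 : ℝ) • (p + q) - (1 / 2 : ℝ) • ((1 - s) • p + (1 - s) • q)
        = (s / 2) • (p + q) by module, norm_smul, Real.norm_of_nonneg (by linarith)]
    nlinarith [norm_add_le p q, norm_nonneg p, norm_nonneg q]
  by_contra hne
  have hDp : 0 < D := norm_pos_iff.2 (sub_ne_zero.2 hne)
  set s := min 1 (D / 12) with hsdef
  have := hs s (lt_min one_pos (by linarith)) (min_le_left _ _)
  have hsD : s ≤ D / 12 := min_le_right _ _
  nlinarith [norm_nonneg p, norm_nonneg q, lt_min one_pos (show (0 : ℝ) < D / 12 by linarith)]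

/-- Local Mazur-Ulam: the map is the restriction of a linear isometry with image `K`. -/
theorem exists_linear (hK : ∀ z, ‖z‖ ≤ 1 → φ z ∈ K) (h0 : φ 0 = 0)
    (hiso : ∀ a b, ‖a‖ ≤ 1 → ‖b‖ ≤ 1 → ‖φ a - φ b‖ = ‖a - b‖)
    (hloc : ∀ z v, ‖z‖ < 1 → v ∈ K → ‖v - φ z‖ < (1 - ‖z‖) / 3 →
      ∃ z', ‖z'‖ ≤ 1 ∧ φ z' = v) :
    ∃ A : Z →ₗᵢ[ℝ] Y, (∀ z, ‖z‖ ≤ 1 → φ z = A z) ∧ (∀ z, A z ∈ K) ∧
      ∀ v ∈ K, ∃ z, A z = v := by
  have half : ∀ z, ‖z‖ ≤ 1 → φ ((1 / 2 : ℝ) • z) = (1 / 2 : ℝ) • φ z := fun z hz => by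
    have := midpoint_closed hK hiso hloc hz (show ‖(0 : Z)‖ ≤ 1 by simp)
    simpa [h0] using this
  have hsc : ∀ (k : ℕ) (z : Z), ‖z‖ ≤ 1 → φ (((1 : ℝ) / 2) ^ k • z) = ((1 : ℝ) / 2) ^ k • φ z := by
    intro k
    induction k with
    | zero => intro z _; simp
    | succ k ih =>
      intro z hz
      rw [pow_succ', mul_smul, half _ ?_, ih z hz, mul_smul]
      rw [norm_smul, Real.norm_of_nonneg (by positivity)]
      exact mul_le_one₀ (pow_le_one₀ (by norm_num) (by norm_num)) (norm_nonneg _) hz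
  have hex : ∀ z : Z, ∃ k : ℕ, ‖z‖ ≤ 2 ^ k := fun z =>
    (pow_unbounded_of_one_lt ‖z‖ one_lt_two).imp fun k hk => hk.le
  choose k hk using hex
  let A : Z → Y := fun z => (2 : ℝ) ^ k z • φ (((1 : ℝ) / 2) ^ k z • z)
  have hsmall : ∀ (z : Z) (j : ℕ), ‖z‖ ≤ 2 ^ j → ‖((1 : ℝ) / 2) ^ j • z‖ ≤ 1 := fun z j hj => by
    rw [norm_smul, Real.norm_of_nonneg (by positivity), one_div_pow, div_mul_eq_mul_div, one_mul,
      div_le_one (by positivity)]
    exact hj
  have hA : ∀ (z : Z) (j : ℕ), ‖z‖ ≤ 2 ^ j → A z = (2 : ℝ) ^ j • φ (((1 : ℝ) / 2) ^ j • z) := by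
    have mono : ∀ (z : Z) (i j : ℕ), ‖z‖ ≤ 2 ^ i → i ≤ j → (2 : ℝ) ^ i • φ (((1 : ℝ) / 2) ^ i • z)
        = (2 : ℝ) ^ j • φ (((1 : ℝ) / 2) ^ j • z) := by
      intro z i j hi hij
      obtain ⟨l, rfl⟩ := Nat.exists_eq_add_of_le hij
      rw [pow_add ((1 : ℝ) / 2), mul_comm, mul_smul, hsc l _ (hsmall z i hi), smul_smul, pow_add,
        mul_assoc, one_div_pow _ l, mul_one_div_cancel (by positivity), mul_one]
    intro z j hj
    rcases le_total (k z) j with h | h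
    · exact mono z _ _ (hk z) h
    · exact (mono z _ _ hj h).symm
  have hadd : ∀ a b, A (a + b) = A a + A b := by
    intro a b
    set j := max (k a) (k b) + 1 with hj
    have ha : ‖a‖ ≤ 2 ^ (max (k a) (k b)) :=
      (hk a).trans (pow_le_pow_right₀ one_le_two (le_max_left _ _))
    have hb : ‖b‖ ≤ 2 ^ (max (k a) (k b)) :=
      (hk b).trans (pow_le_pow_right₀ one_le_two (le_max_right _ _))
    have h2 : (0 : ℝ) < 2 ^ (max (k a) (k b)) := by positivity
    have hab : ‖a + b‖ ≤ 2 ^ j := (norm_add_le a b).trans (by rw [hj, pow_succ]; linarith)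
    have hA' : ‖a‖ ≤ 2 ^ j := ha.trans (by rw [hj, pow_succ]; linarith)
    have hB' : ‖b‖ ≤ 2 ^ j := hb.trans (by rw [hj, pow_succ]; linarith)
    rw [hA _ j hab, hA _ j hA', hA _ j hB', ← smul_add]
    have hm := midpoint_closed hK hiso hloc (hsmall a (max (k a) (k b)) ha)
      (hsmall b (max (k a) (k b)) hb)
    have e : ((1 : ℝ) / 2) ^ j • (a + b) = (1 / 2 : ℝ)
        • (((1 : ℝ) / 2) ^ max (k a) (k b) • a + ((1 : ℝ) / 2) ^ max (k a) (k b) • b) := by
      rw [hj, pow_succ']; module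
    rw [e, hm, hj, pow_succ' ((1 : ℝ) / 2), mul_smul, mul_smul, half _ (hsmall a _ ha),
      half _ (hsmall b _ hb)]
    module
  have hnorm : ∀ z, ‖A z‖ = ‖z‖ := by
    intro z
    have h := hiso _ 0 (hsmall z _ (hk z)) (by simp)
    rw [h0, sub_zero, sub_zero] at h
    simp only [A]
    rw [norm_smul, h, norm_smul, Real.norm_of_nonneg (by positivity),
      Real.norm_of_nonneg (by positivity), ← mul_assoc, one_div_pow,
      mul_one_div_cancel (by positivity), one_mul]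
  let A' : Z →+ Y := AddMonoidHom.mk' A hadd
  have hAc : Continuous A' := by
    refine (Isometry.of_dist_eq fun a b => ?_).continuous
    rw [dist_eq_norm, dist_eq_norm, ← map_sub]
    exact hnorm _
  refine ⟨⟨(A'.toRealLinearMap hAc).toLinearMap, hnorm⟩, fun z hz => ?_,
    fun z => K.smul_mem _ (hK _ (hsmall z _ (hk z))), fun v hv => ?_⟩
  · show φ z = A z
    rw [hA z 0 (by simpa using hz)]
    simp
  · set c : ℝ := 1 / (6 * (‖v‖ + 1)) with hc
    have hc0 : 0 < c := by positivity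
    obtain ⟨z, hz, hzv⟩ := hloc 0 (c • v) (by simp) (K.smul_mem _ hv) (by
      rw [h0, sub_zero, norm_smul, Real.norm_of_nonneg hc0.le, hc, norm_zero, sub_zero,
        div_mul_eq_mul_div, one_mul, div_lt_iff₀ (by positivity)]
      nlinarith [norm_nonneg v])
    refine ⟨c⁻¹ • z, ?_⟩
    show (A'.toRealLinearMap hAc) (c⁻¹ • z) = v
    rw [map_smul]
    show c⁻¹ • A z = v
    have : A z = φ z := by rw [hA z 0 (by simpa using hz)]; simp
    rw [this, hzv, smul_smul, inv_mul_cancel₀ hc0.ne', one_smul]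

end Vale.Agent.P084.Sum
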